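import Vale.Agent.P195.H231.Q.All
import Vale.Agent.P195.H231.Fam

/-!
# P195: the Auslander–Reiten conjecture is false over every field that is not an algebraic
extension of a finite field

For every field `K` that is not algebraic over a finite subfield (of any characteristic):

1. there are a finite-dimensional `K`-algebra `A` and a finitely generated non-projective
   `A`-module `M` with `Ext^i(M, M) = 0 = Ext^i(M, A)` for all `i ≥ 1`;
2. over one and the same finite-dimensional `K`-algebra there are infinitely many pairwise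
   non-isomorphic indecomposable such modules `M 0, M 1, …`, and `Ext^i(M n, M m) = 0` for all
   `i ≥ 1` and `m ≤ n`;
3. there are a finite-dimensional `K`-algebra `B` and a simple `B`-module `T` with
   `Ext^i(T, B) = 0` for all `i ≥ 0`.

Every field of characteristic zero is such a field, and such fields exist in every prime
characteristic.
-/

open CategoryTheory CategoryTheory.Abelian

universe u

theorem Vale.Agent.Results.P195.AllCharacteristics.result :
    (∀ (K : Type u) [Field K], (∀ F : Subfield K, Finite F → ¬ Algebra.IsAlgebraic F K) →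
      (∃ (A : Type u) (_ : Ring A) (_ : Algebra K A) (M : Type u) (_ : AddCommGroup M)
        (_ : Module A M), Module.Finite K A ∧ Module.Finite A M ∧
          (∀ i : ℕ, 1 ≤ i →
            Subsingleton (Ext (ModuleCat.of A M) (ModuleCat.of A M) i) ∧
            Subsingleton (Ext (ModuleCat.of A M) (ModuleCat.of A A) i)) ∧
          ¬ Module.Projective A M) ∧
      (∃ (A : Type u) (_ : Ring A) (_ : Algebra K A) (M : ℕ → Type u)
        (_ : ∀ n, AddCommGroup (M n)) (_ : ∀ n, Module A (M n)), Module.Finite K A ∧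
          (∀ n, Module.Finite A (M n) ∧ ¬ Module.Projective A (M n) ∧
            (∀ p q : Submodule A (M n), IsCompl p q → p = ⊥ ∨ q = ⊥) ∧
            ∀ i : ℕ, 1 ≤ i →
              Subsingleton (Ext (ModuleCat.of A (M n)) (ModuleCat.of A A) i)) ∧
          (∀ m n : ℕ, m ≤ n → ∀ i : ℕ, 1 ≤ i →
            Subsingleton (Ext (ModuleCat.of A (M n)) (ModuleCat.of A (M m)) i)) ∧
          ∀ m n : ℕ, Nonempty (M m ≃ₗ[A] M n) → m = n) ∧
      (∃ (B : Type u) (_ : Ring B) (_ : Algebra K B) (T : Type u) (_ : AddCommGroup T)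
        (_ : Module B T), Module.Finite K B ∧ IsSimpleModule B T ∧
          ∀ i : ℕ, Subsingleton (Ext (ModuleCat.of B T) (ModuleCat.of B B) i))) ∧
    (∀ (K : Type u) [Field K] [CharZero K] (F : Subfield K), Finite F →
      ¬ Algebra.IsAlgebraic F K) ∧
    (∀ p : ℕ, p.Prime → ∃ (K : Type u) (_ : Field K), CharP K p ∧
      ∀ F : Subfield K, Finite F → ¬ Algebra.IsAlgebraic F K) := by
  refine ⟨fun K _ hK => ?_, fun K _ _ F hF => Vale.Agent.P195.H231.not_algebraic_of_charZero F hF,
    Vale.Agent.P195.H231.exists_field⟩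
  obtain ⟨t, h0, ht⟩ := Vale.Agent.P195.H231.exists_order hK
  obtain ⟨hq⟩ := Vale.Agent.P195.H231.exists_qpar h0 ht
  obtain ⟨A, r, a, M, g, m, h1, h2, h3, h4, h5⟩ := Vale.Agent.P195Q.Van.main K
  have h4' : Vale.Agent.P195.Van.OrthPos A M M := fun i => h4 (i + 1) (Nat.succ_pos i)
  have h5' : Vale.Agent.P195.Van.OrthPos A M A := fun i => h5 (i + 1) (Nat.succ_pos i)
  have hA : IsArtinianRing A := isArtinian_of_tower K inferInstance
  refine ⟨⟨A, r, a, M, g, m, h1, h2, fun i hi => ⟨h4 i hi, h5 i hi⟩, h3⟩, ?_,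
    Vale.Agent.P195.H231.gnc_of_ar h3 h4' h5'⟩
  obtain ⟨X, gX, mX, k1, k2, k3⟩ := Vale.Agent.P195.H231.family h2 h3 h4' h5'
  refine ⟨A, r, a, X, gX, mX, h1, fun n => ⟨(k1 n).1, (k1 n).2.1, (k1 n).2.2.1,
    fun i hi => ?_⟩, fun m n hmn i hi => ?_, k3⟩
  · obtain ⟨j, rfl⟩ : ∃ j, i = j + 1 := ⟨i - 1, by omega⟩
    exact (k1 n).2.2.2 j
  · obtain ⟨j, rfl⟩ : ∃ j, i = j + 1 := ⟨i - 1, by omega⟩
    exact k2 m n hmn j
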