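import Vale.Agent.P195.H231.Q.All
import Vale.Agent.P195.H584.Base
import Vale.Agent.P195.H584.Defs

/-!
# P195: the Auslander–Reiten conjecture fails over every base ring which contains a field that is
not algebraic over a finite field

1. `K` a field that is not algebraic over a finite subfield: there are a finite-dimensional
   `K`-algebra `A` and a finitely generated non-projective `A`-module `M` with
   `Ext^i(M, M) = 0 = Ext^i(M, A)` for all `i ≥ 1`, and all this remains true for the
   `R ⊗ A`-module `R ⊗ M`, for every nonzero `K`-algebra `R`, commutative or not; `R ⊗ A` is a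
   finite free `R`-module.
2. Base change: for every field `K`, every left noetherian `K`-algebra `A`, every finitely
   generated `A`-module `M` and every nonzero `K`-algebra `R`: if `M` satisfies (AR) then so does
   the `R ⊗ A`-module `R ⊗ M`, and `R ⊗ M` is projective if and only if `M` is.
-/

open TensorProduct

universe u

open Vale.Agent.P195.H584 in
theorem Vale.Agent.Results.P195.EveryBase.result :
    (∀ (K : Type u) [Field K], Large K →
      ∃ (A : Type u) (_ : Ring A) (_ : Algebra K A) (M : Type u) (_ : AddCommGroup M)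
        (_ : Module K M) (_ : Module A M) (_ : IsScalarTower K A M),
        Module.Finite K A ∧ Module.Finite A M ∧ AR A M ∧ ¬ Module.Projective A M ∧
        StablyAR K A M ∧ ∀ (R : Type u) [Ring R] [Algebra K R],
          Module.Finite R (R ⊗[K] A) ∧ Module.Free R (R ⊗[K] A)) ∧
    (∀ (K : Type u) [Field K] (A : Type u) [Ring A] [Algebra K A] [IsNoetherianRing A]
      (M : Type u) [AddCommGroup M] [Module K M] [Module A M] [IsScalarTower K A M]
      [Module.Finite A M], AR A M → StablyAR K A M) ∧
    (∀ (K : Type u) [Field K] [CharZero K], Large K) ∧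
    (∀ p : ℕ, p.Prime → ∃ (K : Type u) (_ : Field K), CharP K p ∧ Large K) := by
  have base : ∀ (K : Type u) [Field K] (A : Type u) [Ring A] [Algebra K A] [IsNoetherianRing A]
      (M : Type u) [AddCommGroup M] [Module K M] [Module A M] [IsScalarTower K A M]
      [Module.Finite A M], AR A M → StablyAR K A M := by
    intro K _ A _ _ _ M _ _ _ _ _ h R _ _ _
    refine ⟨inferInstanceAs (Module (R ⊗[K] A) (BC K R M)), fun r s a m => smul_bc r s a m,
      finite_bc, fun i hi => ?_, projective_of_bc, bc_projective⟩
    obtain ⟨j, rfl⟩ : ∃ j, i = j + 1 := ⟨i - 1, by omega⟩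
    exact ⟨ez_bc j M (h (j + 1) hi).1, ez_bc_reg j (h (j + 1) hi).2⟩
  refine ⟨fun K _ hK => ?_, base, fun K _ _ F hF =>
    Vale.Agent.P195.H231.not_algebraic_of_charZero F hF, Vale.Agent.P195.H231.exists_field⟩
  obtain ⟨t, h0, ht⟩ := Vale.Agent.P195.H231.exists_order hK
  obtain ⟨hq⟩ := Vale.Agent.P195.H231.exists_qpar h0 ht
  obtain ⟨A, r, a, M, g, m, h1, h2, h3, h4, h5⟩ := Vale.Agent.P195Q.Van.main K
  have hA : IsNoetherianRing A := isNoetherian_of_tower K inferInstance
  let _ : Module K M := Module.compHom M (algebraMap K A)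
  have : IsScalarTower K A M := ⟨fun k a m => by
    change (k • a) • m = algebraMap K A k • (a • m)
    rw [← mul_smul, Algebra.smul_def]⟩
  have hAR : AR A M := fun i hi => ⟨h4 i hi, h5 i hi⟩
  exact ⟨A, r, a, M, g, inferInstance, m, inferInstance, h1, h2, hAR, h3, base K A M hAR,
    fun R _ _ => ⟨inferInstance, inferInstance⟩⟩
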